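import Crest.Agent.N76.Bw.Geo

/-! # Row 76, BRW (helper95): counting directions and tubes in a group. -/

set_option autoImplicit false

open Finset
open scoped RealInnerProductSpace

namespace Crest.Agent.N76.Bw

open Crest.Agent.N76.Red (V)
open Crest.Agent.N76.L

variable {n M : ℕ}
variable {T : Tw n M} {κ : ℕ} {hκ : κ ≤ n} {b m₀ b' a : ℕ} {G : Finset (Nd n)}
  {O : OrthonormalBasis (Fin n) ℝ (V n)} {ζ₀ : V n} {cs : Nd n → Fin (κ + 1) → Nd n}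

lemma three_rho (hT : T.Std) : (3 * (T.Λ * ((M : ℝ) + 1))) ^ n ≤ (T.k : ℝ) ^ n := by
  have := hT.one_le_rho
  refine pw_le hT n (by linarith) (hT.rho_le.trans (pow_le_pow_right₀ hT.one_le_Λ (by norm_num)))

/-- many caps at a point -/
lemma point_card (hT : T.Std) {i j : ℕ} (hij : i ≤ j) (hj : j ≤ M) {c : Nd n} (hc : c ∈ T.al i) :
    T.mm i j ≤ (T.k : ℝ) ^ n * ((T.nr i j c).image fun z => z.2.2).card := by
  classical
  refine (T.mmc i j hij hj c hc).1.trans ?_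
  rw [mul_comm]
  refine card_le_image_mul (T.nr i j c) (fun z => z.2.2) fun p _ => le_trans ?_ (three_rho hT)
  refine card_nd_cap hT.k_pos j _ (c.1 / (T.k : ℤ) ^ (2 * (j - i))) p (ctr T.k i c) (tm T.k i c)
    hT.one_le_rho fun z hz => ?_
  obtain ⟨h1, h2⟩ := mem_filter.1 hz
  obtain ⟨-, h3⟩ := T.mem_nr.1 h1
  refine ⟨h3.1, h2, h3.2.2.trans ?_⟩
  gcongr ?_ * _
  exact hT.gap_le hj

/-- few caps in a family -/
lemma theta_card (H : Grp T hκ b m₀ b' a (2 * a) G O ζ₀ cs) (hT : T.Std) (hb : b ≤ b')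
    (hb' : b' ≤ b + a) (ha : 1 ≤ a) (hM : b + 2 * a + 1 ≤ M) {c₀ : Nd n} (h₀ : c₀ ∈ G)
    (j : Fin (κ + 1)) (L : Finset (Nd n))
    (hL : ∀ z ∈ L, z ∈ T.al (b + a) ∧ ∃ c ∈ G, Nr T.k T.Λ b' (b + a) (cs c j) z) :
    ((L.image fun z => z.2.2).card : ℝ) * T.mm (b + a) (b + 2 * a) ≤
      (T.k : ℝ) ^ n * (T.Λ ^ (4 * n + 1) * (T.k : ℝ) ^ n * T.mm b' (b + 2 * a + 1)) := by
  classical
  obtain ⟨hk, hk', hΛ, hMΛ, hnΛ, hΛk⟩ := hT.num
  have h100 := hT.Λ_ge.1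
  have hM0 : (0 : ℝ) ≤ M := Nat.cast_nonneg _
  set Z := T.nS (b + a) (b + 2 * a) L with hZ
  set Θ := L.image fun z => z.2.2 with hΘ
  have hK : (0 : ℝ) < (T.k : ℝ) ^ (b + a) := by positivity
  set W := (Θ ×ˢ Z).filter fun w => ‖iv w.1 - (T.k : ℝ) ^ (b + a) • fq T.k (b + 2 * a) w.2‖ ≤
    T.Λ * (M + 1) with hW
  have h1 : Θ.card * T.mm (b + a) (b + 2 * a) ≤ (W.card : ℝ) := by
    refine Pk.le_card_fib W Prod.fst Θ fun θ hθ => ?_
    obtain ⟨z, hz, rfl⟩ := mem_image.1 hθ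
    refine (T.mmc _ _ (by omega) (by omega) z (hL z hz).1).1.trans
      (Nat.cast_le.2 (card_le_card_of_injOn (fun z' => (z.2.2, z')) (fun z' hz' => ?_) ?_))
    · have h2 := T.mem_nr.1 (mem_coe.1 hz')
      refine mem_coe.2 (mem_filter.2 ⟨mem_filter.2 ⟨mem_product.2 ⟨hθ,
        T.mem_nS.2 ⟨h2.1, z, hz, h2.2⟩⟩, ?_⟩, rfl⟩)
      have e : iv z.2.2 - (T.k : ℝ) ^ (b + a) • fq T.k (b + 2 * a) z' =
          (T.k : ℝ) ^ (b + a) • (fq T.k (b + a) z - fq T.k (b + 2 * a) z') := by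
        rw [smul_sub]; congr 1; exact (smul_inv_smul₀ hK.ne' _).symm
      rw [e, norm_smul, Real.norm_eq_abs, abs_of_pos hK, norm_sub_rev, mul_comm, ← le_div_iff₀ hK]
      refine (h2.2.fq_le (M := M) (by linarith) (by omega)).trans ?_
      gcongr; linarith
    · intro z' _ z'' _ e; exact (Prod.ext_iff.1 e).2
  have h2 : (W.card : ℝ) ≤ Z.card * (T.k : ℝ) ^ n := by
    refine Pk.card_le_fib W Prod.snd Z (fun w hw => (mem_product.1 (mem_filter.1 hw).1).2)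
      fun z _ => le_trans ?_ (three_rho hT)
    have e : ((W.filter fun w => w.2 = z).image Prod.fst).card =
        (W.filter fun w => w.2 = z).card := card_image_of_injOn fun w hw w' hw' e =>
      Prod.ext e ((mem_filter.1 hw).2.trans (mem_filter.1 hw').2.symm)
    rw [← e]
    refine card_lattice _ ((T.k : ℝ) ^ (b + a) • fq T.k (b + 2 * a) z) hT.one_le_rho
      fun p hp => ?_
    obtain ⟨w, hw, rfl⟩ := mem_image.1 hp
    obtain ⟨w1, w2⟩ := mem_filter.1 hw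
    rw [← w2]; exact (mem_filter.1 w1).2
  obtain ⟨g1, g2⟩ := T.mem_nr.1 (H.near c₀ h₀ j)
  have h3 := T.EN2 hT (b := b') (l := b + 2 * a) (by omega) hM g1 (Z := Z) (T.nS_subset_al _ _ _)
    (fun z hz => by
      obtain ⟨-, z₁, hz₁, n1⟩ := T.mem_nS.1 hz
      obtain ⟨-, c, hc, n2⟩ := hL z₁ hz₁
      have n3 := hT.trans hb' (by omega) (by omega) n2 n1
      have n0 := (T.mem_nr.1 (H.near c hc j)).2
      have n4 := hT.trans hb (by omega) (by omega) n0 n3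
      obtain ⟨-, e2, e3, e4⟩ := cell_eq hk (H.cell c hc c₀ h₀)
      refine ⟨?_, by rw [← fq_congr T.k b' (H.caps c hc c₀ h₀ j)]; exact n3.2.1, ?_⟩
      · rw [n4.1, g2.1, ediv_ediv hk, show 2 * (b' - b) + 2 * (b + 2 * a - b') = 2 * a + 2 * a by
          omega, show 2 * (b + 2 * a - b) = 2 * a + 2 * a by omega, ← ediv_ediv hk c.1,
          ← ediv_ediv hk c₀.1, e2]
      · set K : ℝ := (T.k : ℝ) ^ (b + 2 * a) with hK2
        have hKb : (0 : ℝ) < (T.k : ℝ) ^ b := by positivity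
        have p1 : (T.k : ℝ) ^ (2 * b + 2 * a) = (T.k : ℝ) ^ b * K := by rw [hK2]; ring
        have p2 : (T.k : ℝ) ^ (2 * b') ≤ (T.k : ℝ) ^ b * K := by
          rw [← p1]; exact pow_le_pow_right₀ hk' (by omega)
        have p3 : (T.k : ℝ) ^ b' ≤ K := pow_le_pow_right₀ hk' (by omega)
        have t0 := g2.tm_le hk hb
        rw [abs_sub_comm] at t0 e3
        have a1 := n4.ps_at (M := M) (by linarith) (by omega) (tm T.k b' (cs c₀ j))
          (2 * ((T.k : ℝ) ^ b * K)) ((abs_sub_le _ (tm T.k b c₀) _).trans (by linarith))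
        have a2 := g2.ps_at (M := M) (by linarith) (by omega) (tm T.k b' (cs c₀ j))
          ((T.k : ℝ) ^ b * K) (t0.trans p2)
        have a3 := e4 (tm T.k b' (cs c₀ j))
        rw [ps_tm, norm_sub_rev] at a2
        have q1 : 2 * (2 * ((T.k : ℝ) ^ b * K)) * (T.Λ * M / (T.k : ℝ) ^ b) =
          4 * (T.Λ * M * K) := by field_simp; ring
        have q2 : 2 * ((T.k : ℝ) ^ b * K) * (T.Λ * M / (T.k : ℝ) ^ b) =
          2 * (T.Λ * M * K) := by field_simp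
        have hK0 : 0 < K := by positivity
        have q3 : T.Λ * M * (T.k : ℝ) ^ b' ≤ T.Λ * M * K := by gcongr
        have q4 : 8 * (T.Λ * M) + n ≤ T.k := by
          have : T.Λ ^ 2 ≤ T.Λ ^ 3 := pow_le_pow_right₀ hΛ (by norm_num)
          nlinarith
        refine (norm_sub_le_norm_sub_add_norm_sub _ (ps T.k b c (tm T.k b' (cs c₀ j))) _).trans
          ((add_le_add a1 ((norm_sub_le_norm_sub_add_norm_sub _
            (ps T.k b c₀ (tm T.k b' (cs c₀ j))) _).trans (add_le_add a3 a2))).trans ?_)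
        rw [q1, q2, pow_succ]
        nlinarith)
  calc _ ≤ _ := h1
    _ ≤ _ := h2
    _ ≤ _ := by rw [mul_comm]; gcongr

/-- multiplicity of the directions -/
lemma cap_mult (H : Grp T hκ b m₀ b' a (2 * a) G O ζ₀ cs) (hT : T.Std) (c₀ : Nd n)
    (Θ : Finset (Fin n → ℤ)) (v₀ : Fin κ → ℝ)
    (hΘ : ∀ θ ∈ Θ, (∃ c ∈ G, ∃ z ∈ T.nr b (b + a) c, z.2.2 = θ) ∧
      ∀ l, |dv O hκ T.k b a c₀ θ l - v₀ l| ≤ 1 / (T.k : ℝ) ^ a) :
    (Θ.card : ℝ) ≤ (T.k : ℝ) ^ n := by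
  obtain ⟨hk, hk', hΛ, hMΛ, hnΛ, hΛk⟩ := hT.num
  have h100 := hT.Λ_ge.1
  have hK : (0 : ℝ) < (T.k : ℝ) ^ (b + a) := by positivity
  have hΛ2 : 1 ≤ T.Λ ^ 2 := one_le_pow₀ hΛ
  refine (card_sep' Θ iv O (fun l => if h : (l : ℕ) < κ then
      (T.k : ℝ) ^ (b + a) * ⟪O l, fq T.k b c₀⟫ - (T.k : ℝ) ^ a * v₀ ⟨l, h⟩ / 2
      else (T.k : ℝ) ^ (b + a) * ⟪O l, ζ₀⟫) one_pos (fun _ => T.Λ ^ 2) (fun _ => hΛ2)
    (fun p _ q _ h => one_le_norm_iv_sub h) fun θ hθ l => ?_).trans ?_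
  · obtain ⟨⟨c, hc, z, hz, rfl⟩, h2⟩ := hΘ θ hθ
    by_cases hl : (l : ℕ) < κ
    · rw [dif_pos hl]
      have h3 := h2 ⟨l, hl⟩
      have e : ⟪O l, iv z.2.2⟫ - ((T.k : ℝ) ^ (b + a) * ⟪O l, fq T.k b c₀⟫ -
          (T.k : ℝ) ^ a * v₀ ⟨l, hl⟩ / 2) =
          -((T.k : ℝ) ^ a / 2) * (dv O hκ T.k b a c₀ z.2.2 ⟨l, hl⟩ - v₀ ⟨l, hl⟩) := by
        have : Fin.castLE hκ ⟨l, hl⟩ = l := rfl
        simp only [dv, tv, this, inner_sub_right, real_inner_smul_right]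
        field_simp; ring
      rw [e, abs_mul, abs_neg, abs_of_pos (by positivity)]
      calc _ ≤ (T.k : ℝ) ^ a / 2 * (1 / (T.k : ℝ) ^ a) := by gcongr
        _ = 1 / 2 := by field_simp
        _ ≤ _ := by linarith
    · rw [dif_neg hl]
      have h3 := H.slab c hc (b + a) (by omega) (by omega) z hz l (not_lt.1 hl)
      have e : ⟪O l, iv z.2.2⟫ - (T.k : ℝ) ^ (b + a) * ⟪O l, ζ₀⟫ =
          ⟪O l, fq T.k (b + a) z - ζ₀⟫ * (T.k : ℝ) ^ (b + a) := by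
        simp only [fq, inner_sub_right, real_inner_smul_right]; field_simp
      rw [e, abs_mul, abs_of_pos hK, ← le_div_iff₀ hK]
      exact h3
  · simp only [div_one, prod_const, card_univ, Fintype.card_fin]
    refine pw_le hT n (by positivity) ?_
    rw [pow_succ' _ 2]
    gcongr; linarith

/-- tubes of one direction through a cube -/
lemma tube_card (H : Grp T hκ b m₀ b' a (2 * a) G O ζ₀ cs) (hT : T.Std)
    (hM : b + 2 * a + 1 ≤ M) {c₀ : Nd n} (h₀ : c₀ ∈ G) {u : ℕ} (hu1 : 1 ≤ u) (hu : u ≤ a) {ρ : ℝ}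
    (hρ : 1 ≤ ρ) (hρu : ρ ≤ (T.k : ℝ) ^ u) (θ : Fin n → ℤ) (x₀ : Fin κ → ℝ) (τ₀ : ℝ)
    (S : Finset (Nd n)) (hS : ∀ z ∈ S, z.2.2 = θ ∧ ∃ c ∈ G, z ∈ T.nr b (b + a) c ∧
      |ct T.k b a c₀ c - τ₀| ≤ ρ ∧ ∀ l, |cx O hκ T.k b a c₀ b c l - x₀ l| ≤ ρ) :
    (S.card : ℝ) * T.a (b + a) ≤ T.Λ ^ ((9 * n + 2) * u + (12 * n + 3)) *
      (T.k : ℝ) ^ (κ * u + 3 * n) * (T.mm (b + a) (b + a + u + 1) * T.a (b + a + u + 1)) := by
  obtain ⟨hk, hk', hΛ, hMΛ, hnΛ, hΛk⟩ := hT.num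
  have h100 := hT.Λ_ge.1
  have hM0 : (0 : ℝ) ≤ M := Nat.cast_nonneg _
  have hK : (0 : ℝ) < (T.k : ℝ) ^ (b + a) := by positivity
  have hmm := T.mm1 (b + a) (b + a + u + 1)
  have ha1 := T.a0 (b + a + u + 1)
  rcases S.eq_empty_or_nonempty with rfl | ⟨z₁, hz₁⟩
  · simp only [card_empty, Nat.cast_zero, zero_mul]; positivity
  have hal : S ⊆ T.al (b + a) := fun z hz => by
    obtain ⟨-, c, -, h, -⟩ := hS z hz
    exact (T.mem_nr.1 h).1
  have hwin : ∀ z ∈ S, z.1 = c₀.1 / (T.k : ℤ) ^ (2 * a) := fun z hz => by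
    obtain ⟨-, c, hc, h, -⟩ := hS z hz
    rw [(T.mem_nr.1 h).2.1, Nat.add_sub_cancel_left, (cell_eq hk (H.cell c hc c₀ h₀)).2.1]
  have h1 := T.EN1 hT (i := b + a) (u := u) (by omega) hκ hal hwin O ζ₀ (lf T.k b ζ₀ c₀) 0
    (fun z hz l hl => by
      obtain ⟨-, c, hc, h, -⟩ := hS z hz
      have a1 := lf_near (M := M) hk hΛ (by linarith) (by omega) (by omega) (T.mem_nr.1 h).2
        (H.slab c hc (b + a) (by omega) (by omega) z h) l hl
      have a2 := H.leaf c hc c₀ h₀ l hl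
      rw [sub_zero]
      change |⟪O l, lf T.k (b + a) ζ₀ z - _⟫| ≤ _
      rw [← sub_add_sub_cancel _ (lf T.k b ζ₀ c), inner_add_right]
      refine (abs_add_le _ _).trans ((add_le_add a1 a2).trans ?_)
      have : 3 * T.Λ ^ 2 + 1 ≤ T.Λ ^ 4 := by
        have : 100 ≤ T.Λ ^ 2 := by nlinarith
        nlinarith
      nlinarith)
    (fun j h1 h2 z' hz' => by
      obtain ⟨b1, z, hz, b2⟩ := T.mem_nS.1 hz'
      obtain ⟨-, c, hc, h, -⟩ := hS z hz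
      exact H.slab c hc j (by omega) (by omega) z'
        (T.mem_nr.2 ⟨b1, hT.trans (by omega) h1.le (by omega) (T.mem_nr.1 h).2 b2⟩))
  have h2 := T.EN2 hT (b := b + a) (l := b + a + u) (by omega) (by omega) (hal hz₁)
    (Z := T.nS (b + a) (b + a + u) S) (T.nS_subset_al _ _ _) (fun z' hz' => by
      obtain ⟨-, z, hz, n1⟩ := T.mem_nS.1 hz'
      obtain ⟨e1, c, hc, h, t1, x1⟩ := hS z hz
      obtain ⟨e2, c', hc', h', t2, x2⟩ := hS z₁ hz₁
      have ew : z.1 = z₁.1 := (hwin z hz).trans (hwin z₁ hz₁).symm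
      have et : tm T.k (b + a) z₁ = tm T.k (b + a) z := by rw [tm, tm, ew]
      have ec := e1.trans e2.symm
      refine ⟨ew ▸ n1.1, by rw [← fq_congr T.k _ ec]; exact n1.2.1, ?_⟩
      obtain ⟨d1, d2⟩ := cube_close H hT (c₀ := c₀) hc hc' hρ
        ((abs_sub_le _ τ₀ _).trans (by linarith [abs_sub_comm τ₀ (ct T.k b a c₀ c')]))
        (fun l => (abs_sub_le _ (x₀ l) _).trans (by
          linarith [x1 l, abs_sub_comm (x₀ l) (cx O hκ T.k b a c₀ b c' l), x2 l]))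
      have a1 := n1.ps_le (M := M) (by linarith) (by omega)
      have a2 : ‖ctr T.k (b + a) z - ctr T.k (b + a) z₁‖ ≤
          T.Λ ^ 3 / 2 * ρ * (T.k : ℝ) ^ (b + a) := by
        rw [← ps_tm, ← ps_tm T.k (b + a) z₁, et, ps_sub_ps ec _ (tm T.k b c)]
        have b1 := (T.mem_nr.1 h).2.ps_le (M := M) (by linarith) (by omega)
        have b2 := (T.mem_nr.1 h').2.ps_at (M := M) (by linarith) (by omega) _ _ d1
        have b3 := d2 (tm T.k b c)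
        rw [ps_tm] at b3
        rw [norm_sub_rev] at b2
        have q : 2 * (2 * ρ * (T.k : ℝ) ^ (2 * b + a)) * (T.Λ * M / (T.k : ℝ) ^ b) =
          4 * (T.Λ * M) * (ρ * (T.k : ℝ) ^ (b + a)) := by field_simp; ring
        refine (norm_sub_le_norm_sub_add_norm_sub _ (ctr T.k b c) _).trans
          ((add_le_add b1 ((norm_sub_le_norm_sub_add_norm_sub _ (ps T.k b c' (tm T.k b c)) _).trans
            (add_le_add b3 b2))).trans ?_)
        rw [q]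
        have q2 : T.Λ * M * (T.k : ℝ) ^ (b + a) ≤ T.Λ * M * (ρ * (T.k : ℝ) ^ (b + a)) := by
          gcongr; exact le_mul_of_one_le_left hK.le hρ
        have q3 : 6 * (T.Λ * M) ≤ T.Λ ^ 3 / 10 := by
          have : T.Λ ^ 2 ≤ T.Λ ^ 3 := pow_le_pow_right₀ hΛ (by norm_num)
          nlinarith
        have q4 : 0 ≤ ρ * (T.k : ℝ) ^ (b + a) := by positivity
        have q5 : 0 ≤ T.Λ ^ 3 := by positivity
        nlinarith
      rw [et]
      refine (norm_sub_le_norm_sub_add_norm_sub _ (ctr T.k (b + a) z) _).trans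
        ((add_le_add a1 a2).trans ?_)
      have q1 : ρ * (T.k : ℝ) ^ (b + a) ≤ (T.k : ℝ) ^ (b + a + u) := by
        rw [pow_add _ (b + a), mul_comm]; gcongr
      have q2 : T.Λ * M + T.Λ ^ 3 / 2 ≤ T.k := by
        have : T.Λ ^ 2 ≤ T.Λ ^ 3 := pow_le_pow_right₀ hΛ (by norm_num)
        nlinarith
      have q3 : T.Λ ^ 3 / 2 * (ρ * (T.k : ℝ) ^ (b + a)) ≤ T.Λ ^ 3 / 2 * (T.k : ℝ) ^ (b + a + u) := by
        gcongr
      rw [pow_succ _ (b + a + u)]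
      nlinarith [pow_pos (show (0 : ℝ) < T.k by linarith) (b + a + u)])
  have h3 := T.a_step hT (l := b + a + u) (by omega)
  have ha2 := T.a0 (b + a + u)
  calc _ ≤ _ := h1
    _ ≤ T.Λ ^ ((9 * n + 2) * u) * (T.k : ℝ) ^ (κ * u) *
        (T.Λ ^ (4 * n + 1) * (T.k : ℝ) ^ n * T.mm (b + a) (b + a + u + 1)) *
        (T.Λ ^ (8 * n + 2) * (T.k : ℝ) ^ (2 * n) * T.a (b + a + u + 1)) := by gcongr
    _ = _ := by ring

end Crest.Agent.N76.Bw
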