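import Crest.Agent.N76.L.Groups2
import Crest.Agent.N76.L.EN
import Crest.Agent.N76.L.Bas1
import Crest.Agent.N76.Pk.Basic

/-! # Row 76, BRW (helper95): coordinates in a group, geometric estimates. -/

set_option autoImplicit false

open Finset
open scoped RealInnerProductSpace

namespace Crest.Agent.N76.Bw

open Crest.Agent.N76.Red (V)
open Crest.Agent.N76.L

variable {n M : ℕ}

/-- rescaled tangential position at time `tm c₀` of a level `i` node -/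
noncomputable def cx (O : OrthonormalBasis (Fin n) ℝ (V n)) {κ : ℕ} (hκ : κ ≤ n) (k b a : ℕ)
    (c₀ : Nd n) (i : ℕ) (c : Nd n) : Fin κ → ℝ := fun l =>
  ⟪O (Fin.castLE hκ l), ps k i c (tm k b c₀) - ctr k b c₀⟫ / (k : ℝ) ^ (b + a)

/-- rescaled time -/
noncomputable def ct (k b a : ℕ) (c₀ c : Nd n) : ℝ := (tm k b c - tm k b c₀) / (k : ℝ) ^ (2 * b + a)

/-- rescaled direction of a level `b + a` cap -/
noncomputable def dv (O : OrthonormalBasis (Fin n) ℝ (V n)) {κ : ℕ} (hκ : κ ≤ n) (k b a : ℕ)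
    (c₀ : Nd n) (θ : Fin n → ℤ) : Fin κ → ℝ :=
  tv O hκ ((k : ℝ) ^ b) (fq k b c₀) (((k : ℝ) ^ (b + a))⁻¹ • iv θ)

variable {T : Tw n M} {κ : ℕ} {hκ : κ ≤ n} {b m₀ b' a : ℕ} {G : Finset (Nd n)}
  {O : OrthonormalBasis (Fin n) ℝ (V n)} {ζ₀ : V n} {cs : Nd n → Fin (κ + 1) → Nd n}

lemma bd (H : Grp T hκ b m₀ b' a (2 * a) G O ζ₀ cs) (hT : T.Std) {c₀ c : Nd n} (h₀ : c₀ ∈ G)
    (hc : c ∈ G) : |ct T.k b a c₀ c| ≤ (T.k : ℝ) ^ a ∧
      ∀ l, |cx O hκ T.k b a c₀ b c l| ≤ n * (T.k : ℝ) ^ a := by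
  obtain ⟨hk, hk', -⟩ := hT.num
  obtain ⟨-, -, e3, e4⟩ := cell_eq hk (H.cell c hc c₀ h₀)
  constructor
  · rw [ct, abs_div, abs_of_pos (by positivity : (0 : ℝ) < (T.k : ℝ) ^ (2 * b + a)),
      div_le_iff₀ (by positivity), ← pow_add]
    exact e3.trans (le_of_eq (by congr 1; ring))
  · intro l
    rw [cx, abs_div, abs_of_pos (by positivity : (0 : ℝ) < (T.k : ℝ) ^ (b + a)),
      div_le_iff₀ (by positivity), mul_assoc, ← pow_add]
    have := e4 (tm T.k b c₀)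
    rw [ps_tm] at this
    exact (abs_inner_le O _ _).trans (this.trans (le_of_eq (by congr 2; ring)))

lemma near_line (H : Grp T hκ b m₀ b' a (2 * a) G O ζ₀ cs) (hT : T.Std) (hM : b + a ≤ M)
    {c₀ c z : Nd n} (h₀ : c₀ ∈ G) (hc : c ∈ G) (hz : Nr T.k T.Λ b (b + a) c z) (l : Fin κ) :
    |cx O hκ T.k b a c₀ b c l - ct T.k b a c₀ c * dv O hκ T.k b a c₀ z.2.2 l -
      cx O hκ T.k b a c₀ (b + a) z l| ≤ T.Λ * M := by
  obtain ⟨hk, hk', hΛ, -⟩ := hT.num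
  have e1 := fq_congr T.k b (cell_eq hk (H.cell c hc c₀ h₀)).1
  have hK : (0 : ℝ) < (T.k : ℝ) ^ (b + a) := by positivity
  have e : cx O hκ T.k b a c₀ b c l - ct T.k b a c₀ c * dv O hκ T.k b a c₀ z.2.2 l -
      cx O hκ T.k b a c₀ (b + a) z l =
      -⟪O (Fin.castLE hκ l), ps T.k (b + a) z (tm T.k b c) - ctr T.k b c⟫ / (T.k : ℝ) ^ (b + a) := by
    have f : ((T.k : ℝ) ^ (b + a))⁻¹ • iv z.2.2 = fq T.k (b + a) z := rfl
    simp only [cx, ct, dv, tv, f]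
    rw [ps_sub T.k (b + a) z (tm T.k b c₀) (tm T.k b c), ps_sub T.k b c (tm T.k b c₀) (tm T.k b c),
      ps_tm, e1]
    simp only [inner_sub_right, real_inner_smul_right]
    field_simp
    ring
  rw [e, abs_div, abs_neg, abs_of_pos hK, div_le_iff₀ hK]
  exact (abs_inner_le O _ _).trans (hz.ps_le (by linarith) hM)

lemma dv_le (H : Grp T hκ b m₀ b' a (2 * a) G O ζ₀ cs) (hT : T.Std) (hM : b + a ≤ M)
    {c₀ c z : Nd n} (h₀ : c₀ ∈ G) (hc : c ∈ G) (hz : Nr T.k T.Λ b (b + a) c z) (l : Fin κ) :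
    |dv O hκ T.k b a c₀ z.2.2 l| ≤ 2 * (T.Λ * M) := by
  obtain ⟨hk, hk', hΛ, -⟩ := hT.num
  have e1 := fq_congr T.k b (cell_eq hk (H.cell c hc c₀ h₀)).1
  have hK : (0 : ℝ) < (T.k : ℝ) ^ b := by positivity
  have f : ((T.k : ℝ) ^ (b + a))⁻¹ • iv z.2.2 = fq T.k (b + a) z := rfl
  rw [dv, tv, f, ← e1, abs_mul, abs_mul, abs_neg, abs_two, abs_of_pos hK]
  calc _ ≤ 2 * (T.k : ℝ) ^ b * (T.Λ * M / (T.k : ℝ) ^ b) := by
        gcongr
        exact (abs_inner_le O _ _).trans (hz.fq_le (by linarith) hM)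
    _ = _ := by field_simp

/-- two nodes of a group in one cube -/
lemma cube_close (H : Grp T hκ b m₀ b' a (2 * a) G O ζ₀ cs) (hT : T.Std) {c₀ c c' : Nd n}
    (hc : c ∈ G) (hc' : c' ∈ G) {ρ : ℝ} (hρ : 1 ≤ ρ)
    (h1 : |ct T.k b a c₀ c - ct T.k b a c₀ c'| ≤ 2 * ρ)
    (h2 : ∀ l, |cx O hκ T.k b a c₀ b c l - cx O hκ T.k b a c₀ b c' l| ≤ 2 * ρ) :
    |tm T.k b c - tm T.k b c'| ≤ 2 * ρ * (T.k : ℝ) ^ (2 * b + a) ∧
      ∀ t, ‖ps T.k b c t - ps T.k b c' t‖ ≤ T.Λ ^ 3 / 10 * ρ * (T.k : ℝ) ^ (b + a) := by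
  obtain ⟨hk, hk', hΛ, hMΛ, hnΛ, -⟩ := hT.num
  have e1 := (cell_eq hk (H.cell c hc c' hc')).1
  have hK : (0 : ℝ) < (T.k : ℝ) ^ (b + a) := by positivity
  have hK' : (0 : ℝ) < (T.k : ℝ) ^ (2 * b + a) := by positivity
  have hKb : (0 : ℝ) < (T.k : ℝ) ^ b := by positivity
  have hΛ2 : 1 ≤ T.Λ ^ 2 := one_le_pow₀ hΛ
  have t1 : |tm T.k b c - tm T.k b c'| ≤ 2 * ρ * (T.k : ℝ) ^ (2 * b + a) := by
    rw [ct, ct, ← sub_div, sub_sub_sub_cancel_right, abs_div, abs_of_pos hK',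
      div_le_iff₀ hK'] at h1
    exact h1
  refine ⟨t1, fun t => ?_⟩
  rw [ps_sub_ps e1 t (tm T.k b c₀)]
  refine (norm_le_of_inner O _ (ρ := 5 * T.Λ ^ 2 * ρ * (T.k : ℝ) ^ (b + a)) (by positivity)
    fun l => ?_).trans ?_
  · by_cases hl : (l : ℕ) < κ
    · have := h2 ⟨l, hl⟩
      rw [cx, cx, ← sub_div, ← inner_sub_right, sub_sub_sub_cancel_right, abs_div, abs_of_pos hK,
        div_le_iff₀ hK] at this
      refine this.trans ?_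
      gcongr; nlinarith
    · have a1 := H.leaf c hc c' hc' l (not_lt.1 hl)
      rw [lf_sub T.k b ζ₀ e1 (tm T.k b c₀), inner_sub_right, real_inner_smul_right] at a1
      have a2 := H.slab c' hc' b le_rfl (by omega) c'
        (T.mem_nr.2 ⟨H.sub hc', Nr.refl _ _ _ _⟩) l (not_lt.1 hl)
      have a3 : |2 * (tm T.k b c - tm T.k b c') * ⟪O l, fq T.k b c' - ζ₀⟫| ≤
          4 * T.Λ ^ 2 * ρ * (T.k : ℝ) ^ (b + a) := by
        rw [abs_mul, abs_mul, abs_two]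
        calc _ ≤ 2 * (2 * ρ * (T.k : ℝ) ^ (2 * b + a)) * (T.Λ ^ 2 / (T.k : ℝ) ^ b) := by gcongr
          _ = _ := by field_simp; ring
      have a4 := abs_sub_abs_le_abs_sub ⟪O l, ps T.k b c (tm T.k b c₀) - ps T.k b c' (tm T.k b c₀)⟫
        (2 * (tm T.k b c - tm T.k b c') * ⟪O l, fq T.k b c' - ζ₀⟫)
      have a5 : (T.k : ℝ) ^ (b + a) ≤ T.Λ ^ 2 * ρ * (T.k : ℝ) ^ (b + a) :=
        le_mul_of_one_le_left hK.le (by nlinarith)
      linarith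
  · calc (n : ℝ) * (5 * T.Λ ^ 2 * ρ * (T.k : ℝ) ^ (b + a))
        ≤ T.Λ / 100 * (5 * T.Λ ^ 2 * ρ * (T.k : ℝ) ^ (b + a)) := by gcongr
      _ = T.Λ ^ 3 / 20 * ρ * (T.k : ℝ) ^ (b + a) := by ring
      _ ≤ _ := by gcongr; norm_num

/-- few small cells in a unit cube -/
lemma mult (H : Grp T hκ b m₀ b' a (2 * a) G O ζ₀ cs) (hT : T.Std) (c₀ : Nd n) {S : Finset (Nd n)}
    (hS : S ⊆ G) (hinj : Set.InjOn (cell (n := n) T.k b a) S) (x₀ : Fin κ → ℝ) (τ₀ : ℝ)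
    (h : ∀ c ∈ S, |ct T.k b a c₀ c - τ₀| ≤ 1 ∧ ∀ l, |cx O hκ T.k b a c₀ b c l - x₀ l| ≤ 1) :
    (S.card : ℝ) ≤ (T.k : ℝ) ^ (2 * n + 1) := by
  classical
  obtain ⟨hk, hk', hΛ, hMΛ, hnΛ, hΛk⟩ := hT.num
  have h100 := hT.Λ_ge.1
  have h3 : 100 ≤ T.Λ ^ 3 := h100.trans (le_self_pow₀ hΛ (by norm_num))
  rcases S.eq_empty_or_nonempty with rfl | ⟨c₁, hc₁⟩
  · simp
  have hcl : ∀ c ∈ S, _ := fun c hc => cube_close H hT (c₀ := c₀) (hS hc) (hS hc₁) le_rfl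
    ((abs_sub_le _ τ₀ _).trans (by
      linarith [(h c hc).1, abs_sub_comm τ₀ (ct T.k b a c₀ c₁), (h c₁ hc₁).1]))
    (fun l => (abs_sub_le _ (x₀ l) _).trans (by
      linarith [(h c hc).2 l, abs_sub_comm (x₀ l) (cx O hκ T.k b a c₀ b c₁ l), (h c₁ hc₁).2 l]))
  have hK' : (0 : ℝ) < (T.k : ℝ) ^ (2 * b + a) := by positivity
  have h1 : ((S.image fun c => c.1 / (T.k : ℤ) ^ a).card : ℝ) ≤ 3 * 3 := by
    refine card_int _ (tm T.k b c₁ / (T.k : ℝ) ^ (2 * b + a)) (by norm_num) fun p hp => ?_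
    obtain ⟨c, hc, rfl⟩ := mem_image.1 hp
    have a1 := ediv_bounds hk c.1 a (2 * b)
    have a2 := abs_le.1 (hcl c hc).1
    rw [add_comm a] at a1
    have a3 : (0 : ℝ) < (T.k : ℝ) ^ (2 * b) := by positivity
    rw [abs_le, neg_le_sub_iff_le_add, sub_le_iff_le_add, div_le_iff₀ hK', ← sub_le_iff_le_add',
      le_div_iff₀ hK']
    simp only [tm] at a2 ⊢
    constructor <;> nlinarith [a1.1, a1.2]
  refine (card_le_image_mul S (fun c => c.1 / (T.k : ℤ) ^ a) (B := (T.k : ℝ) ^ n * (T.k : ℝ) ^ n)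
    fun p _ => ?_).trans ?_
  · rw [← card_image_of_injOn (hinj.mono (coe_subset.2 (filter_subset _ _)))]
    refine (card_cells hk b a _ p (fq T.k b c₁)
      (ps T.k b c₁ ((p : ℝ) * (T.k : ℝ) ^ (2 * b + a))) (ρ₁ := 1) (ρ₂ := T.Λ ^ 3 / 10) le_rfl
      (by positivity) fun c hc => ?_).trans ?_
    · obtain ⟨h1, h2⟩ := mem_filter.1 hc
      refine ⟨h2, ?_, by simpa using (hcl c h1).2 _⟩
      rw [fq_congr T.k b (cell_eq hk (H.cell c (hS h1) c₁ (hS hc₁))).1, sub_self, norm_zero]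
      positivity
    · gcongr <;> linarith
  · calc _ ≤ (T.k : ℝ) * ((T.k : ℝ) ^ n * (T.k : ℝ) ^ n) := by gcongr ?_ * _; linarith
      _ = _ := by ring

/-- transversality of the families -/
lemma det_ge (H : Grp T hκ b m₀ (b + (n * m₀ + 2)) a (2 * a) G O ζ₀ cs) (hT : T.Std)
    (hk2 : T.Λ ^ (3 * n + 6) ≤ T.k) (hm : n * m₀ + 2 ≤ a) (hM : b + a ≤ M) {c₀ : Nd n}
    (h₀ : c₀ ∈ G) (z : Fin (κ + 1) → Nd n)
    (hz : ∀ j, ∃ c ∈ G, Nr T.k T.Λ (b + (n * m₀ + 2)) (b + a) (cs c j) (z j)) :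
    1 ≤ (T.k : ℝ) ^ (n * m₀ + 2) * |dt fun j => dv O hκ T.k b a c₀ (z j).2.2| := by
  obtain ⟨hk, hk', hΛ, hMΛ, hnΛ, hΛk⟩ := hT.num
  have h100 := hT.Λ_ge.1
  set b' := b + (n * m₀ + 2) with hb'
  set K₁ : ℝ := (T.k : ℝ) ^ (n * m₀ + 2) with hK₁
  have hK₁1 : 1 ≤ K₁ := one_le_pow₀ hk'
  have hKb : (0 : ℝ) < (T.k : ℝ) ^ b := by positivity
  have hM0 : (0 : ℝ) ≤ M := Nat.cast_nonneg _
  have hΛM : 2 * (T.Λ * M) ≤ T.Λ ^ 2 := by nlinarith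
  have hp := dt_perturb (fun j => tv O hκ ((T.k : ℝ) ^ b) (fq T.k b c₀) (fq T.k b' (cs c₀ j)))
    (fun j => dv O hκ T.k b a c₀ (z j).2.2) (K := T.Λ ^ 2) (η := T.Λ ^ 2 / K₁) (one_le_pow₀ hΛ)
    (by positivity)
    (fun j l => by
      rw [tv, abs_mul, abs_mul, abs_neg, abs_two, abs_of_pos hKb]
      calc _ ≤ 2 * (T.k : ℝ) ^ b * (T.Λ * M / (T.k : ℝ) ^ b) := by
            gcongr
            exact (abs_inner_le O _ _).trans
              ((T.mem_nr.1 (H.near c₀ h₀ j)).2.fq_le (by linarith) (by omega))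
        _ = 2 * (T.Λ * M) := by field_simp
        _ ≤ _ := hΛM)
    (fun j l => by
      obtain ⟨c, hc, hn⟩ := hz j
      exact (dv_le H hT hM h₀ hc (hT.trans (by omega) (by omega) hM
        (T.mem_nr.1 (H.near c hc j)).2 hn) l).trans hΛM)
    (fun j l => by
      obtain ⟨c, hc, hn⟩ := hz j
      have f : ((T.k : ℝ) ^ (b + a))⁻¹ • iv (z j).2.2 = fq T.k (b + a) (z j) := rfl
      have e : tv O hκ ((T.k : ℝ) ^ b) (fq T.k b c₀) (fq T.k b' (cs c₀ j)) l -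
          dv O hκ T.k b a c₀ (z j).2.2 l = 2 * (T.k : ℝ) ^ b *
            ⟪O (Fin.castLE hκ l), fq T.k (b + a) (z j) - fq T.k b' (cs c j)⟫ := by
        rw [dv, f, fq_congr T.k b' (H.caps c hc c₀ h₀ j)]
        simp only [tv, inner_sub_right]; ring
      rw [e, abs_mul, abs_mul, abs_two, abs_of_pos hKb]
      calc _ ≤ 2 * (T.k : ℝ) ^ b * (T.Λ * M / (T.k : ℝ) ^ b') := by
            gcongr
            exact (abs_inner_le O _ _).trans (hn.fq_le (by linarith) hM)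
        _ = 2 * (T.Λ * M) / K₁ := by rw [hb', pow_add, hK₁]; field_simp
        _ ≤ _ := by gcongr)
  have hd := H.det c₀ h₀
  set A := dt fun j => tv O hκ ((T.k : ℝ) ^ b) (fq T.k b c₀) (fq T.k b' (cs c₀ j)) with hA
  set A' := dt fun j => dv O hκ T.k b a c₀ (z j).2.2 with hA'
  have hκn : (κ : ℝ) ≤ n := by exact_mod_cast hκ
  have hκΛ : (κ : ℝ) + 1 ≤ T.Λ := by linarith
  have hF : (((κ + 1).factorial : ℕ) : ℝ) ≤ T.Λ ^ (κ + 1) :=
    le_trans (by exact_mod_cast Nat.factorial_le_pow (κ + 1))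
      (pow_le_pow_left₀ (by positivity) hκΛ _)
  have q1 : K₁ * |A - A'| ≤ T.k := by
    calc K₁ * |A - A'| ≤ K₁ * (T.Λ ^ (κ + 1) * (T.Λ * (T.Λ ^ 2) ^ (κ + 1) * (T.Λ ^ 2 / K₁))) := by
          gcongr
          refine hp.trans ?_
          gcongr
      _ = T.Λ ^ (3 * κ + 6) := by field_simp; ring
      _ ≤ T.Λ ^ (3 * n + 6) := pow_le_pow_right₀ hΛ (by omega)
      _ ≤ _ := hk2
  have q2 : (T.k : ℝ) ^ 2 ≤ K₁ * |A| := by
    refine le_trans ?_ (mul_le_mul_of_nonneg_left hd (by linarith))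
    rw [div_pow, one_pow, ← pow_mul, mul_one_div, le_div_iff₀ (by positivity), ← pow_add, hK₁]
    refine pow_le_pow_right₀ hk' ?_
    have := Nat.mul_le_mul_left m₀ hκ
    rw [mul_comm n]; omega
  have q4 : K₁ * |A| ≤ K₁ * |A - A'| + K₁ * |A'| := by
    rw [← mul_add]
    gcongr
    simpa using abs_add_le (A - A') A'
  have : (100 : ℝ) ≤ T.k := h100.trans hT.Λ_ge.2.2.2
  nlinarith

end Crest.Agent.N76.Bw
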