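import Crest.Agent.N76.Bw.Count

/-! # Row 76 (helper95): `BRW n κ` from Lemma G. -/

set_option autoImplicit false

open Finset
open scoped RealInnerProductSpace

namespace Crest.Agent.N76.Bw

open Crest.Agent.N76.Red (V)
open Crest.Agent.N76.L

variable {n M : ℕ}
variable {T : Tw n M} {κ : ℕ} {hκ : κ ≤ n} {b m₀ a : ℕ} {G : Finset (Nd n)}
  {O : OrthonormalBasis (Fin n) ℝ (V n)} {ζ₀ : V n} {cs : Nd n → Fin (κ + 1) → Nd n}

lemma of_lg (hT : T.Std) {x y s t : ℝ} (hx : 0 < x) (hy : 0 < y)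
    (h : T.lg x + s ≤ T.lg y + t) : x * (T.k : ℝ) ^ s ≤ y * (T.k : ℝ) ^ t := by
  have hk : (1 : ℝ) < T.k := by have := hT.k_ge; exact_mod_cast (by omega : 1 < T.k)
  have e : ∀ z : ℝ, 0 < z → z = (T.k : ℝ) ^ T.lg z := fun z hz =>
    (Real.rpow_logb (by linarith) hk.ne' hz).symm
  calc x * (T.k : ℝ) ^ s = (T.k : ℝ) ^ (T.lg x + s) := by
        rw [Real.rpow_add (by linarith), ← e x hx]
    _ ≤ (T.k : ℝ) ^ (T.lg y + t) := Real.rpow_le_rpow_of_exponent_le hk.le h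
    _ = _ := by rw [Real.rpow_add (by linarith), ← e y hy]

lemma exists_scale {K ρ : ℝ} (hρ : 1 ≤ ρ) (hK : 1 ≤ K) {a : ℕ} (ha : 1 ≤ a) (h : ρ ≤ K ^ a) :
    ∃ u, 1 ≤ u ∧ u ≤ a ∧ ρ ≤ K ^ u ∧ K ^ u ≤ K * ρ := by
  classical
  have hex : ∃ u, 1 ≤ u ∧ ρ ≤ K ^ u := ⟨a, ha, h⟩
  obtain ⟨h1, h2⟩ := Nat.find_spec hex
  refine ⟨Nat.find hex, h1, Nat.find_min' hex ⟨ha, h⟩, h2, ?_⟩
  obtain ⟨v, hv⟩ : ∃ v, Nat.find hex = v + 1 := ⟨Nat.find hex - 1, by omega⟩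
  rw [hv, pow_succ']
  refine mul_le_mul_of_nonneg_left ?_ (by linarith)
  rcases v with _ | v
  · simpa using hρ
  · have := Nat.find_min hex (m := v + 1) (by omega)
    exact (not_le.1 fun h => this ⟨by omega, h⟩).le

lemma exists_reps {α β : Type*} [DecidableEq β] (G : Finset α) (f : α → β) :
    ∃ Y ⊆ G, Set.InjOn f Y ∧ Y.card = (G.image f).card ∧ ∀ c ∈ G, ∃ y ∈ Y, f y = f c := by
  obtain ⟨Y, h1, h2, h3⟩ := exists_subset_injOn_image_eq_of_surjOn (f := f) (G : Set α) (G.image f)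
    (by rw [coe_image]; exact Set.surjOn_image _ _)
  refine ⟨Y, coe_subset.1 h1, h2, by rw [← h3, card_image_of_injOn h2], fun c hc => ?_⟩
  have := mem_image_of_mem f hc
  rw [← h3] at this
  exact mem_image.1 this

/-- the statement of Lemma G at fixed parameters -/
def GBody (κ : ℕ) (c N σ Λ : ℝ) : Prop :=
  open Classical in
  ∀ (α ι : Type) (Y : Finset α) (x : α → Fin κ → ℝ) (τ : α → ℝ)
      (Θ : Fin (κ + 1) → Finset ι) (v : ι → Fin κ → ℝ) (I : α → Finset ι),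
      (∀ y ∈ Y, |τ y| ≤ Λ * N ∧ ∀ l, |x y l| ≤ Λ * N) →
      N ^ (((κ : ℝ) + 1) * σ) ≤ Λ * Y.card →
      (∀ (x₀ : Fin κ → ℝ) (τ₀ : ℝ),
        ((Y.filter fun y => |τ y - τ₀| ≤ 1 ∧ ∀ l, |x y l - x₀ l| ≤ 1).card : ℝ) ≤ Λ) →
      (∀ ρ : ℝ, 1 ≤ ρ → ρ ≤ N → ∃ F : Finset ((Fin κ → ℝ) × ℝ),
        (F.card : ℝ) * ρ ^ (((κ : ℝ) + 1) * σ) ≤ Λ * Y.card ∧
        ∀ y ∈ Y, ∃ f ∈ F, |τ y - f.2| ≤ Λ * ρ ∧ ∀ l, |x y l - f.1 l| ≤ Λ * ρ) →
      (∀ j, (Θ j).Nonempty) →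
      (∀ y ∈ Y, ∀ j, ((Θ j).card : ℝ) ≤ Λ * (I y ∩ Θ j).card) →
      N ^ c ≤ (Θ 0).card →
      (∀ v₀ : Fin κ → ℝ,
        (((Θ 0).filter fun θ => ∀ l, |v θ l - v₀ l| ≤ 1 / N).card : ℝ) ≤ Λ) →
      (∀ j, ∀ θ ∈ Θ j, ∀ l, |v θ l| ≤ Λ) →
      (∀ θ : Fin (κ + 1) → ι, (∀ j, θ j ∈ Θ j) →
        1 ≤ Λ * |(Matrix.of fun i j : Fin (κ + 1) =>
          (Fin.cons 1 (v (θ j)) : Fin (κ + 1) → ℝ) i).det|) →
      (∀ j, ∀ θ ∈ Θ j, ∀ ρ : ℝ, 1 ≤ ρ → ρ ≤ N → ∀ (x₀ : Fin κ → ℝ) (τ₀ : ℝ),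
        ∃ F : Finset (Fin κ → ℝ), (F.card : ℝ) ≤ Λ * ρ ^ ((κ : ℝ) * σ) ∧
        ∀ y ∈ Y, θ ∈ I y → |τ y - τ₀| ≤ ρ → (∀ l, |x y l - x₀ l| ≤ ρ) →
          ∃ g ∈ F, ∀ l, |x y l - τ y * v θ l - g l| ≤ Λ) →
      False

/-- a good group contradicts Lemma G -/
lemma grp_false (H : Grp T hκ b m₀ (b + (n * m₀ + 2)) a (2 * a) G O ζ₀ cs) (hT : T.Std)
    (hk2 : T.Λ ^ ((9 * n + 2) * M + (12 * n + 6)) ≤ T.k) (hne : G.Nonempty)
    (hm : n * m₀ + 2 ≤ a) (hM : b + 2 * a + 1 ≤ M) {c σ Γ : ℝ} {e : ℕ} (he : n * m₀ + 2 ≤ e)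
    (hσ0 : 0 ≤ σ) (hσ1 : σ ≤ 1) (hΓ : (T.k : ℝ) ^ (4 * n + 2 + e) ≤ Γ)
    (hca : (n : ℝ) ≤ c * a)
    (h1 : ∀ u ≤ a, ((G.image (cell T.k b (a + u))).card : ℝ) *
      ((T.k : ℝ) ^ u) ^ (((κ : ℝ) + 1) * σ) ≤ Γ * (G.image (cell T.k b a)).card)
    (h2 : T.mm (b + (n * m₀ + 2)) (b + 2 * a + 1) ≤
      T.mm (b + (n * m₀ + 2)) (b + a) * T.mm (b + a) (b + 2 * a) * (T.k : ℝ) ^ e)
    (h3 : (T.k : ℝ) ^ (2 * c * a) ≤ T.mm (b + (n * m₀ + 2)) (b + a))
    (h4 : ∀ u, 1 ≤ u → u ≤ a → T.mm (b + a) (b + a + u + 1) * T.a (b + a + u + 1) *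
      (T.k : ℝ) ^ (κ * u) ≤ T.a (b + a) * (((T.k : ℝ) ^ u) ^ ((κ : ℝ) * σ) * (T.k : ℝ) ^ e))
    (hG : GBody κ c ((T.k : ℝ) ^ a) σ Γ) : False := by
  classical
  obtain ⟨hk, hk', hΛ, hMΛ, hnΛ, hΛk⟩ := hT.num
  have h100 := hT.Λ_ge.1
  have hM0 : (0 : ℝ) ≤ M := Nat.cast_nonneg _
  set K : ℝ := (T.k : ℝ) with hK
  have hK0 : 0 < K := by linarith
  set b' := b + (n * m₀ + 2) with hb'
  have hp : ∀ r, r ≤ 4 * n + 2 + e → K ^ r ≤ Γ := fun r hr => (pow_le_pow_right₀ hk' hr).trans hΓ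
  have hl : ∀ r, r ≤ (9 * n + 2) * M + (12 * n + 6) → T.Λ ^ r ≤ K := fun r hr =>
    (pow_le_pow_right₀ hΛ hr).trans hk2
  have hΛ2 : T.Λ ^ 2 ≤ K := hl 2 (by omega)
  have hKΓ : K ≤ Γ := by simpa using hp 1 (by omega)
  have hnK : (n : ℝ) ≤ K := by nlinarith
  have hΛM : 2 * (T.Λ * M) ≤ K := by nlinarith
  have hΛM0 : 0 ≤ T.Λ * M := by positivity
  have hKa : 1 ≤ K ^ a := one_le_pow₀ hk'
  obtain ⟨c₀, h₀⟩ := hne
  obtain ⟨Y, hYG, hYi, hYc, -⟩ := exists_reps G (cell T.k b a)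
  set L : Fin (κ + 1) → Finset (Nd n) := fun j => T.nS b' (b + a) (G.image fun c => cs c j) with hL
  have hLm : ∀ j, ∀ z ∈ L j, z ∈ T.al (b + a) ∧ ∃ c ∈ G, Nr T.k T.Λ b' (b + a) (cs c j) z :=
    fun j z hz => by
      obtain ⟨a1, g, hg, a2⟩ := T.mem_nS.1 hz
      obtain ⟨c, hc, rfl⟩ := mem_image.1 hg
      exact ⟨a1, c, hc, a2⟩
  have htr : ∀ c ∈ G, ∀ j z, Nr T.k T.Λ b' (b + a) (cs c j) z → Nr T.k T.Λ b (b + a) c z :=
    fun c hc j z hz => hT.trans (by omega) (by omega) (by omega) (T.mem_nr.1 (H.near c hc j)).2 hz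
  have hsub : ∀ c ∈ G, ∀ j, ((T.nr b' (b + a) (cs c j)).image fun z => z.2.2) ⊆
      (L j).image fun z => z.2.2 := fun c hc j =>
    image_subset_image (T.nr_subset_nS (mem_image_of_mem _ hc))
  have hpt : ∀ c ∈ G, ∀ j, T.mm b' (b + a) ≤
      K ^ n * ((T.nr b' (b + a) (cs c j)).image fun z => z.2.2).card := fun c hc j =>
    point_card hT (by omega) (by omega) (T.mem_nr.1 (H.near c hc j)).1
  refine hG (Nd n) (Fin n → ℤ) Y (cx O hκ T.k b a c₀ b) (ct T.k b a c₀)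
    (fun j => (L j).image fun z => z.2.2) (dv O hκ T.k b a c₀)
    (fun y => univ.biUnion fun j => (T.nr b' (b + a) (cs y j)).image fun z => z.2.2)
    (fun y hy => ?_) ?_ (fun x₀ τ₀ => ?_) (fun ρ hρ hρN => ?_) (fun j => ?_) (fun y hy j => ?_) ?_
    (fun v₀ => ?_) (fun j θ hθ l => ?_) (fun θ hθ => ?_) (fun j θ hθ ρ hρ hρN x₀ τ₀ => ?_)
  · obtain ⟨a1, a2⟩ := bd H hT h₀ (hYG hy)
    exact ⟨a1.trans (le_mul_of_one_le_left (by linarith) (by linarith)),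
      fun l => (a2 l).trans (by gcongr; linarith)⟩
  · rw [hYc]
    refine le_trans (le_mul_of_one_le_left (by positivity) ?_) (h1 a le_rfl)
    exact_mod_cast card_pos.2 (image_nonempty.2 ⟨c₀, h₀⟩)
  · refine (mult H hT c₀ ((filter_subset _ _).trans hYG)
      (hYi.mono (coe_subset.2 (filter_subset _ _))) x₀ τ₀ fun c hc => (mem_filter.1 hc).2).trans
      (hp _ (by omega))
  · obtain ⟨u, u1, u2, u3, u4⟩ := exists_scale hρ hk' (by omega) hρN
    obtain ⟨R, hRG, -, hRc, hR⟩ := exists_reps G (cell T.k b (a + u))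
    refine ⟨R.image fun c => (cx O hκ T.k b a c₀ b c, ct T.k b a c₀ c), ?_, fun y hy => ?_⟩
    · rw [hYc]
      refine le_trans ?_ (h1 u u2)
      rw [← hRc]
      gcongr
      exact card_image_le
    · obtain ⟨r, hr, er⟩ := hR y (hYG hy)
      obtain ⟨-, -, e3, e4⟩ := cell_eq hk er.symm
      refine ⟨_, mem_image_of_mem _ hr, ?_, fun l => ?_⟩
      · simp only [ct]
        rw [← sub_div, sub_sub_sub_cancel_right, abs_div, abs_of_pos (pow_pos hK0 _),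
          div_le_iff₀ (pow_pos hK0 _)]
        refine e3.trans ?_
        rw [← add_assoc, pow_add, mul_comm]
        gcongr
        exact u4.trans (by gcongr)
      · simp only [cx]
        rw [← sub_div, ← inner_sub_right, sub_sub_sub_cancel_right, abs_div,
          abs_of_pos (pow_pos hK0 _), div_le_iff₀ (pow_pos hK0 _)]
        refine (abs_inner_le O _ _).trans ((e4 _).trans ?_)
        rw [← add_assoc, pow_add, mul_comm (K ^ (b + a)), ← mul_assoc]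
        gcongr ?_ * _
        calc (n : ℝ) * K ^ u ≤ K * (K * ρ) := by gcongr
          _ = K ^ 2 * ρ := by ring
          _ ≤ _ := by gcongr; exact hp 2 (by omega)
  · exact (((T.nr_nonempty (by omega) (by omega) (T.mem_nr.1 (H.near c₀ h₀ j)).1).image _).mono
      (hsub c₀ h₀ j))
  · have a1 := theta_card H hT (by omega) (by omega) (by omega) hM h₀ j (L j) (hLm j)
    have a3 := T.mm1 (b + a) (b + 2 * a)
    have a4 := T.mm1 b' (b + a)
    have a5 : (((L j).image fun z => z.2.2).card : ℝ) ≤ K ^ (2 * n + 1 + e) * T.mm b' (b + a) := by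
      refine le_of_mul_le_mul_right (a1.trans ?_) (by linarith : 0 < T.mm (b + a) (b + 2 * a))
      calc _ ≤ K ^ n * (K * K ^ n * (T.mm b' (b + a) * T.mm (b + a) (b + 2 * a) * K ^ e)) := by
            gcongr
            · linarith [T.mm1 b' (b + 2 * a + 1)]
            · exact hl _ (by omega)
        _ = _ := by ring
    calc _ ≤ _ := a5
      _ ≤ K ^ (2 * n + 1 + e) *
          (K ^ n * ((T.nr b' (b + a) (cs y j)).image fun z => z.2.2).card) := by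
          gcongr; exact hpt y (hYG hy) j
      _ = K ^ (3 * n + 1 + e) * ((T.nr b' (b + a) (cs y j)).image fun z => z.2.2).card := by ring
      _ ≤ _ := by
          refine mul_le_mul (hp _ (by omega)) (Nat.cast_le.2 (card_le_card fun θ hθ => ?_))
            (Nat.cast_nonneg _) (by linarith)
          exact (@mem_inter _ (_) _ _ _).2
            ⟨mem_biUnion.2 ⟨j, mem_univ _, hθ⟩, hsub y (hYG hy) j hθ⟩
  · have a1 : K ^ (2 * c * a) ≤ K ^ n * (((L 0).image fun z => z.2.2).card : ℝ) :=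
      h3.trans ((hpt c₀ h₀ 0).trans (mul_le_mul_of_nonneg_left
        (Nat.cast_le.2 (card_le_card (hsub c₀ h₀ 0))) (by positivity)))
    refine le_of_mul_le_mul_left (le_trans ?_ a1) (pow_pos hK0 n)
    rw [← Real.rpow_natCast, ← Real.rpow_natCast, ← Real.rpow_mul hK0.le, ← Real.rpow_add hK0]
    exact Real.rpow_le_rpow_of_exponent_le hk' (by linarith)
  · refine (cap_mult H hT c₀ _ v₀ fun θ hθ => ?_).trans (hp _ (by omega))
    obtain ⟨a1, a2⟩ := mem_filter.1 hθ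
    obtain ⟨z, hz, rfl⟩ := mem_image.1 a1
    obtain ⟨b1, c, hc, b2⟩ := hLm 0 z hz
    exact ⟨⟨c, hc, z, T.mem_nr.2 ⟨b1, htr c hc 0 z b2⟩, rfl⟩, a2⟩
  · obtain ⟨z, hz, rfl⟩ := mem_image.1 hθ
    obtain ⟨-, c, hc, b2⟩ := hLm j z hz
    exact (dv_le H hT (by omega) h₀ hc (htr c hc j z b2) l).trans (hΛM.trans hKΓ)
  · choose z hz hzθ using fun j => mem_image.1 (hθ j)
    have := det_ge H hT (hl _ (by omega)) hm (by omega) h₀ z fun j => (hLm j _ (hz j)).2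
    simp only [hzθ] at this
    exact this.trans (mul_le_mul_of_nonneg_right (hp _ (by omega)) (abs_nonneg _))
  · obtain ⟨u, u1, u2, u3, u4⟩ := exists_scale hρ hk' (by omega) hρN
    set S := (T.al (b + a)).filter fun z => z.2.2 = θ ∧ ∃ c ∈ G, z ∈ T.nr b (b + a) c ∧
      |ct T.k b a c₀ c - τ₀| ≤ ρ ∧ ∀ l, |cx O hκ T.k b a c₀ b c l - x₀ l| ≤ ρ with hS
    refine ⟨S.image (cx O hκ T.k b a c₀ (b + a)), ?_, fun y hy hθy t1 x1 => ?_⟩
    · have a1 := tube_card H hT hM h₀ u1 u2 hρ u3 θ x₀ τ₀ S fun z hz => (mem_filter.1 hz).2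
      have a2 := h4 u u1 u2
      have a3 := T.a0 (b + a)
      have a4 : T.Λ ^ ((9 * n + 2) * u + (12 * n + 3)) ≤ K :=
        hl _ (add_le_add (Nat.mul_le_mul_left _ (by omega)) (by omega))
      have a5 : (K ^ u) ^ ((κ : ℝ) * σ) ≤ K ^ n * ρ ^ ((κ : ℝ) * σ) := by
        have hκn : (κ : ℝ) ≤ n := by exact_mod_cast hκ
        have hκ0 : (0 : ℝ) ≤ κ := Nat.cast_nonneg _
        refine (Real.rpow_le_rpow (by positivity) u4 (by positivity)).trans ?_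
        rw [Real.mul_rpow hK0.le (by linarith), ← Real.rpow_natCast]
        gcongr
        nlinarith
      have a6 : (S.card : ℝ) ≤ K ^ (4 * n + 1 + e) * ρ ^ ((κ : ℝ) * σ) := by
        refine le_of_mul_le_mul_right (a1.trans ?_) a3
        have a7 := T.mm1 (b + a) (b + a + u + 1)
        have a8 := T.a0 (b + a + u + 1)
        calc _ ≤ K * K ^ (κ * u + 3 * n) *
              (T.mm (b + a) (b + a + u + 1) * T.a (b + a + u + 1)) := by gcongr
          _ = K ^ (3 * n + 1) *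
              (T.mm (b + a) (b + a + u + 1) * T.a (b + a + u + 1) * K ^ (κ * u)) := by ring
          _ ≤ K ^ (3 * n + 1) * (T.a (b + a) * (K ^ n * ρ ^ ((κ : ℝ) * σ) * K ^ e)) := by
              gcongr K ^ (3 * n + 1) * ?_
              exact a2.trans (by gcongr)
          _ = _ := by ring
      refine (Nat.cast_le.2 card_image_le).trans (a6.trans ?_)
      gcongr
      exact hp _ (by omega)
    · obtain ⟨j', -, hj'⟩ := mem_biUnion.1 hθy
      obtain ⟨z, hz, rfl⟩ := mem_image.1 hj'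
      obtain ⟨b1, b2⟩ := T.mem_nr.1 hz
      have b3 := htr y (hYG hy) j' z b2
      refine ⟨_, mem_image_of_mem _ (mem_filter.2 ⟨b1, rfl, y, hYG hy, T.mem_nr.2 ⟨b1, b3⟩, t1,
        x1⟩), fun l => (near_line H hT (by omega) h₀ (hYG hy) b3 l).trans (by linarith)⟩

set_option synthInstance.maxSize 2048 in
/-- **BRW from Lemma G.** -/
theorem brw_of {n κ : ℕ} (hG : LemG κ) (h1 : 1 ≤ κ) (hκ : κ ≤ n) : BRW n κ := by
  classical
  intro c hc
  obtain ⟨εG, N₀, hεG, hG⟩ := hG (c / 2) (by linarith)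
  set C : ℕ := 2 * n * (n + 1) + 7 * n + 5 with hC
  have hC0 : (0 : ℝ) < C := by positivity
  have hn1 : (1 : ℝ) ≤ n := by exact_mod_cast h1.trans hκ
  refine ⟨min (min 1 (c / n)) (εG / (2 * C)), by positivity, fun M =>
    (good_std M ((9 * n + 2) * M + (12 * n + 6)) N₀).mono ?_⟩
  rintro T ⟨hT, hN₀, hk2⟩ b m₀ a N σ hm₀ hma hM hN hne hbr hnar hσ hσ' H1 H2 H3 H4
  set ε := min (min 1 (c / n)) (εG / (2 * C)) with hε
  have ε1 : ε ≤ 1 := (min_le_left _ _).trans (min_le_left _ _)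
  have ε2 : ε ≤ c / n := (min_le_left _ _).trans (min_le_right _ _)
  have ε3 : ε ≤ εG / (2 * C) := min_le_right _ _
  obtain ⟨hk, hk', hΛ, hMΛ, hnΛ, hΛk⟩ := hT.num
  have ha0 : (0 : ℝ) ≤ a := Nat.cast_nonneg _
  have h2 : 2 ≤ ε * a := le_trans (by push_cast; nlinarith [Nat.cast_nonneg (α := ℝ) m₀]) hma
  have hm : n * m₀ + 2 ≤ a := by
    have : ((n * m₀ + 2 : ℕ) : ℝ) ≤ a := hma.trans (by nlinarith)
    exact_mod_cast this
  set e := ⌈ε * a⌉₊ with he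
  have e1 : ε * a ≤ e := Nat.le_ceil _
  have e2 : (e : ℝ) ≤ 2 * (ε * a) := by linarith [Nat.ceil_lt_add_one (show 0 ≤ ε * a by linarith)]
  have e3 : n * m₀ + 2 ≤ e := by exact_mod_cast hma.trans e1
  have hK0 : (0 : ℝ) < T.k := by linarith
  have hKe : (T.k : ℝ) ^ (ε * a) ≤ (T.k : ℝ) ^ e := by
    rw [← Real.rpow_natCast]; exact Real.rpow_le_rpow_of_exponent_le hk' e1
  have hmn : m₀ ≤ n * m₀ := Nat.le_mul_of_pos_left _ (by omega)
  obtain ⟨O, ζ₀, cs, gl, D⟩ := T.exists_dec hT (b' := b + (n * m₀ + 2)) (a₁ := 2 * a) a h1 hκ hm₀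
    (by omega) (by omega) (by omega) hN hbr (Or.inr ⟨hM, hnar⟩)
  set Γ : ℝ := (T.k : ℝ) ^ (C * e) with hΓ
  have hpos : ∀ u, (0 : ℝ) < (N.image (cell T.k b u)).card := fun u => by
    exact_mod_cast card_pos.2 (image_nonempty.2 hne)
  set z : Lab n κ → ℕ → ℝ := fun y u =>
    (((N.filter fun c => gl c = y).image (cell T.k b (a + u))).card : ℝ) with hz
  set w : ℕ → ℝ := fun u => ((T.k : ℝ) ^ u) ^ (((κ : ℝ) + 1) * σ) with hw
  have hw0 : ∀ u, 0 ≤ w u := fun u => by positivity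
  set E : ℕ := (n * m₀ + 2 + 1) * n * (n + 1) + 3 * n with hE
  have s1 : ∀ u ∈ range (a + 1), ∑ y ∈ N.image gl, z y u * w u ≤
      (T.k : ℝ) ^ (E + e) * (N.image (cell T.k b a)).card := by
    intro u hu
    have hu' : u ≤ a := Nat.lt_succ_iff.1 (mem_range.1 hu)
    have a1 := D.sum_cells hT (by omega) (by omega) (u := u) (by omega)
    rw [Nat.add_sub_cancel_left] at a1
    have a2 := of_lg hT (hpos (a + u)) (hpos a)
      (s := ((n : ℝ) - κ) * u + ((κ : ℝ) + 1) * σ * u) (t := ε * a)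
      (by have := H1 u hu'; simp only [Tw.cc] at this; linarith)
    have a3 : (T.k : ℝ) ^ (((n : ℝ) - κ) * u + ((κ : ℝ) + 1) * σ * u) =
        (T.k : ℝ) ^ ((n - κ) * u) * w u := by
      rw [Real.rpow_add hK0, hw]
      simp only []
      rw [← Real.rpow_natCast, ← Real.rpow_natCast, ← Real.rpow_mul hK0.le]
      push_cast [Nat.cast_sub hκ]
      congr 2; ring
    rw [a3] at a2
    rw [← sum_mul]
    calc _ ≤ (T.k : ℝ) ^ ((n - κ) * u + E) * (N.image (cell T.k b (a + u))).card * w u :=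
          mul_le_mul_of_nonneg_right a1 (hw0 u)
      _ = (T.k : ℝ) ^ E *
          ((N.image (cell T.k b (a + u))).card * ((T.k : ℝ) ^ ((n - κ) * u) * w u)) := by ring
      _ ≤ (T.k : ℝ) ^ E * ((N.image (cell T.k b a)).card * (T.k : ℝ) ^ e) := by
          gcongr (T.k : ℝ) ^ E * ?_
          exact a2.trans (by gcongr)
      _ = _ := by ring
  have s2 : ((N.image (cell T.k b a)).card : ℝ) ≤ ∑ y ∈ N.image gl, z y 0 := by
    simp only [hz, add_zero]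
    rw [sum_card_img]
    refine Nat.cast_le.2 (le_trans (card_le_card ?_) (card_image_le (f := Prod.snd)))
    intro q hq
    obtain ⟨c, hc, rfl⟩ := mem_image.1 hq
    exact mem_image.2 ⟨_, mem_image_of_mem _ hc, rfl⟩
  have s3 : ∑ y ∈ N.image gl, ∑ u ∈ range (a + 1), z y u * w u ≤
      ∑ y ∈ N.image gl, Γ * z y 0 := by
    rw [sum_comm, ← mul_sum]
    refine (sum_le_card_nsmul _ _ _ s1).trans ?_
    rw [card_range, nsmul_eq_mul, ← mul_assoc]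
    refine mul_le_mul ?_ s2 (Nat.cast_nonneg _) (by positivity)
    have a1 : ((a + 1 : ℕ) : ℝ) ≤ T.k := by
      have := hT.k_ge
      exact_mod_cast (by omega : a + 1 ≤ T.k)
    calc _ ≤ (T.k : ℝ) * (T.k : ℝ) ^ (E + e) := by gcongr
      _ = (T.k : ℝ) ^ (E + e + 1) := by ring
      _ ≤ _ := pow_le_pow_right₀ hk' (by
          have b1 : (n * m₀ + 2 + 1) * n * (n + 1) ≤ 2 * e * n * (n + 1) :=
            Nat.mul_le_mul_right _ (Nat.mul_le_mul_right _ (by omega))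
          have b2 : n ≤ n * e := Nat.le_mul_of_pos_right _ (by omega)
          rw [hE, hC]; nlinarith)
  obtain ⟨y, hy, hyz⟩ := exists_le_of_sum_le (image_nonempty.2 hne) s3
  obtain ⟨c₁, hc₁, rfl⟩ := mem_image.1 hy
  have hmm := fun i j => lt_of_lt_of_le one_pos (T.mm1 i j)
  refine grp_false (D.grp hk (gl c₁)) hT hk2 ⟨c₁, mem_filter.2 ⟨hc₁, rfl⟩⟩ hm hM (c := c / 2)
    (σ := σ) (Γ := Γ) e3 (by linarith) (by linarith) (pow_le_pow_right₀ hk' ?_) ?_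
    (fun u hu => ?_) ?_ ?_ (fun u u1 u2 => ?_) (hG _ σ Γ ?_ (by linarith) (by linarith)
      (one_le_pow₀ hk') ?_)
  · have b2 : n ≤ n * e := Nat.le_mul_of_pos_right _ (by omega)
    rw [hC]; nlinarith
  · rw [le_div_iff₀ (by linarith)] at ε2
    nlinarith
  · refine le_trans ?_ hyz
    exact single_le_sum (f := fun u => z (gl c₁) u * w u)
      (fun u _ => mul_nonneg (Nat.cast_nonneg _) (hw0 u)) (mem_range.2 (Nat.lt_succ_of_le hu))
  · have := of_lg hT (hmm (b + (n * m₀ + 2)) (b + 2 * a + 1))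
      (mul_pos (hmm (b + (n * m₀ + 2)) (b + a)) (hmm (b + a) (b + 2 * a))) (s := 0) (t := ε * a)
      (by rw [T.lg_mul (hmm _ _) (hmm _ _), add_zero]; exact H2)
    rw [Real.rpow_zero, mul_one] at this
    exact this.trans (mul_le_mul_of_nonneg_left hKe (mul_pos (hmm _ _) (hmm _ _)).le)
  · have := of_lg hT one_pos (hmm (b + (n * m₀ + 2)) (b + a)) (s := 2 * (c / 2) * a) (t := 0)
      (by rw [T.lg_one]; simp only [Tw.m] at H3; linarith)
    simpa using this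
  · have := of_lg hT (mul_pos (hmm (b + a) (b + a + u + 1)) (T.a0 (b + a + u + 1))) (T.a0 (b + a))
      (s := ((κ * u : ℕ) : ℝ)) (t := (u : ℝ) * (κ * σ) + ε * a)
      (by
        have := H4 u u1 u2
        rw [T.lg_mul (hmm _ _) (T.a0 _)]
        simp only [Tw.D, Tw.A, Tw.m] at this
        push_cast; linarith)
    rw [Real.rpow_natCast, Real.rpow_add hK0, Real.rpow_mul hK0.le, Real.rpow_natCast] at this
    refine this.trans (mul_le_mul_of_nonneg_left ?_ (T.a0 _).le)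
    gcongr
  · exact hN₀.trans (hT.Λ_ge.2.2.2.trans (le_self_pow₀ hk' (by omega)))
  · rw [hΓ, ← Real.rpow_natCast, ← Real.rpow_natCast, ← Real.rpow_mul hK0.le]
    refine Real.rpow_le_rpow_of_exponent_le hk' ?_
    rw [le_div_iff₀ (by positivity)] at ε3
    push_cast
    nlinarith

end Crest.Agent.N76.Bw
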